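import Vale.Agent.Lib.P249.helper62.GridDefs

/-!
# P249 grid lower bound: the spread of the weighted grid (pool job GRID-F, backup copy by helper55)

`grid_spread`: the `q/2`-th moment of the squared Euclidean distance of two independent grid
points with the discrete Gaussian product weights is at least `(2 k M^2 / (3 e^2))^(q/2)` times
the total weight.
-/

namespace Vale.Agent.Lib.P249.H55

open Finset
open Vale.Agent.Lib.P249.H62

private lemma sum_range_cast (n : ℕ) : ∑ i ∈ range n, (i : ℝ) = n * (n - 1) / 2 := by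
  induction n with
  | zero => simp
  | succ n ih => rw [sum_range_succ, ih]; push_cast; ring

private lemma sum_range_sq (n : ℕ) :
    ∑ i ∈ range n, (i : ℝ) ^ 2 = (n - 1) * n * (2 * n - 1) / 6 := by
  induction n with
  | zero => simp
  | succ n ih => rw [sum_range_succ, ih]; push_cast; ring

private lemma sum_gv (M : ℕ) : ∑ t : Fin (2 * M + 1), gv M t = 0 := by
  unfold gv
  rw [Fin.sum_univ_eq_sum_range (fun i => (i : ℝ) - M) (2 * M + 1)]
  rw [sum_sub_distrib, sum_range_cast, sum_const, card_range, nsmul_eq_mul]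
  push_cast; ring

private lemma sum_gv_sq (M : ℕ) :
    ∑ t : Fin (2 * M + 1), gv M t ^ 2 = M * (M + 1) * (2 * M + 1) / 3 := by
  unfold gv
  rw [Fin.sum_univ_eq_sum_range (fun i => ((i : ℝ) - M) ^ 2) (2 * M + 1)]
  have h : ∀ i ∈ range (2 * M + 1),
      ((i : ℝ) - M) ^ 2 = (i : ℝ) ^ 2 - 2 * M * i + (M : ℝ) ^ 2 := by
    intros; ring
  rw [sum_congr rfl h, sum_add_distrib, sum_sub_distrib, ← mul_sum, sum_range_sq,
    sum_range_cast, sum_const, card_range, nsmul_eq_mul]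
  push_cast; ring

private lemma gv_sq_le (M : ℕ) (t : Fin (2 * M + 1)) : gv M t ^ 2 ≤ (M : ℝ) ^ 2 := by
  unfold gv
  have h1 : (t : ℝ) ≤ 2 * M := by
    have h2 : (t : ℕ) ≤ 2 * M := by have := t.2; omega
    exact_mod_cast h2
  have h0 : (0 : ℝ) ≤ (t : ℝ) := by positivity
  exact sq_le_sq' (by linarith) (by linarith)

private lemma gphi_pos (M : ℕ) (t : Fin (2 * M + 1)) : 0 < gphi M t := Real.exp_pos _

private lemma gphi_le_one (M : ℕ) (t : Fin (2 * M + 1)) : gphi M t ≤ 1 := by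
  unfold gphi
  rw [Real.exp_le_one_iff]
  have : 0 ≤ gv M t ^ 2 / (M : ℝ) ^ 2 := by positivity
  rw [neg_div]; linarith

private lemma gphi_ge (M : ℕ) (hM : 1 ≤ M) (t : Fin (2 * M + 1)) :
    Real.exp (-1) ≤ gphi M t := by
  unfold gphi
  apply Real.exp_le_exp.mpr
  have hM1 : (1 : ℝ) ≤ M := by exact_mod_cast hM
  have hMpos : (0 : ℝ) < (M : ℝ) ^ 2 := pow_pos (by linarith) 2
  rw [neg_div, neg_le_neg_iff, div_le_one hMpos]
  exact gv_sq_le M t

private lemma gZ_pos (M : ℕ) : 0 < gZ M := by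
  unfold gZ
  exact sum_pos (fun t _ => gphi_pos M t) univ_nonempty

private lemma gZ_le (M : ℕ) : gZ M ≤ 2 * M + 1 := by
  unfold gZ
  calc ∑ t : Fin (2 * M + 1), gphi M t ≤ ∑ _t : Fin (2 * M + 1), (1 : ℝ) :=
        sum_le_sum (fun t _ => gphi_le_one M t)
    _ = 2 * M + 1 := by simp

private lemma gPhi_nonneg (M k : ℕ) (x : Fin k → Fin (2 * M + 1)) : 0 ≤ gPhi M k x := by
  unfold gPhi
  exact prod_nonneg (fun j _ => (gphi_pos M (x j)).le)

private lemma gdist2_nonneg (M k : ℕ) (x y : Fin k → Fin (2 * M + 1)) : 0 ≤ gdist2 M k x y := by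
  unfold gdist2
  exact sum_nonneg (fun j _ => sq_nonneg _)

/-- marginal of the product weight in one coordinate -/
private lemma marg (M k : ℕ) (j : Fin k) (u : Fin (2 * M + 1) → ℝ) :
    ∑ x : Fin k → Fin (2 * M + 1), gPhi M k x * u (x j)
      = gZ M ^ (k - 1) * ∑ t, gphi M t * u t := by
  classical
  have h1 : ∀ x : Fin k → Fin (2 * M + 1), gPhi M k x * u (x j)
      = ∏ i, (gphi M (x i) * (if i = j then u (x i) else 1)) := by
    intro x
    rw [prod_mul_distrib, prod_ite_eq' univ j (fun i => u (x i))]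
    simp [gPhi]
  have h2 := Finset.prod_univ_sum (t := fun _ : Fin k => (univ : Finset (Fin (2 * M + 1))))
    (f := fun i t => gphi M t * (if i = j then u t else 1))
  rw [Fintype.piFinset_univ] at h2
  rw [sum_congr rfl (fun x _ => h1 x), ← h2]
  have h3 : ∀ i : Fin k, ∑ t : Fin (2 * M + 1), gphi M t * (if i = j then u t else 1)
      = if i = j then ∑ t, gphi M t * u t else gZ M := by
    intro i
    split_ifs <;> simp [gZ]
  rw [prod_congr rfl (fun i _ => h3 i), ← mul_prod_erase univ _ (mem_univ j)]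
  rw [prod_congr rfl (fun i hi => if_neg (ne_of_mem_erase hi)), prod_const,
    card_erase_of_mem (mem_univ j), card_univ, Fintype.card_fin]
  simp only [if_true]
  ring

/-- double sums of weighted squared differences -/
private lemma dbl {ι : Type*} [Fintype ι] (w a : ι → ℝ) :
    ∑ x, ∑ y, w x * w y * (a x - a y) ^ 2
      = 2 * (∑ x, w x) * (∑ x, w x * a x ^ 2) - 2 * (∑ x, w x * a x) ^ 2 := by
  have h : ∀ x y, w x * w y * (a x - a y) ^ 2
      = (w x * a x ^ 2) * w y - 2 * ((w x * a x) * (w y * a y)) + w x * (w y * a y ^ 2) := by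
    intros; ring
  simp_rw [h, sum_add_distrib, sum_sub_distrib, ← mul_sum, ← sum_mul]
  ring

private lemma sum_gPhi (M k : ℕ) (hk : 1 ≤ k) :
    ∑ x : Fin k → Fin (2 * M + 1), gPhi M k x = gZ M ^ k := by
  have h := marg M k ⟨0, hk⟩ (fun _ => 1)
  simp only [mul_one] at h
  rw [h, show ∑ t : Fin (2 * M + 1), gphi M t = gZ M from rfl,
    pow_sub_one_mul (by omega : k ≠ 0)]

/-- the one-coordinate second moment -/
private lemma one_coord (M : ℕ) (hM : 1 ≤ M) :
    2 * (M : ℝ) ^ 2 / (3 * Real.exp 2) * gZ M ^ 2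
      ≤ 2 * gZ M * (∑ t, gphi M t * gv M t ^ 2) - 2 * (∑ t, gphi M t * gv M t) ^ 2 := by
  have hd := dbl (gphi M) (gv M)
  rw [show ∑ t : Fin (2 * M + 1), gphi M t = gZ M from rfl] at hd
  rw [← hd]
  have hd1 := dbl (fun _ : Fin (2 * M + 1) => (1 : ℝ)) (gv M)
  simp only [one_mul, sum_const, card_univ, Fintype.card_fin, nsmul_eq_mul, mul_one] at hd1
  rw [sum_gv, sum_gv_sq] at hd1
  have hlow : ∑ x : Fin (2 * M + 1), ∑ y : Fin (2 * M + 1),
      Real.exp (-2) * (gv M x - gv M y) ^ 2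
      ≤ ∑ x, ∑ y, gphi M x * gphi M y * (gv M x - gv M y) ^ 2 := by
    apply sum_le_sum; intro x _
    apply sum_le_sum; intro y _
    apply mul_le_mul_of_nonneg_right _ (sq_nonneg _)
    have h1 := gphi_ge M hM x
    have h2 := gphi_ge M hM y
    have h3 : Real.exp (-2) = Real.exp (-1) * Real.exp (-1) := by
      rw [← Real.exp_add]; norm_num
    rw [h3]
    exact mul_le_mul h1 h2 (Real.exp_pos _).le ((Real.exp_pos _).le.trans h1)
  refine le_trans ?_ hlow
  simp_rw [← mul_sum]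
  rw [hd1]
  have hM1 : (1 : ℝ) ≤ M := by exact_mod_cast hM
  have hZ := gZ_le M
  have hZ0 := (gZ_pos M).le
  have hZ2 : gZ M ^ 2 ≤ (2 * (M : ℝ) + 1) ^ 2 := pow_le_pow_left₀ hZ0 hZ 2
  have he : Real.exp (-2) = 1 / Real.exp 2 := by rw [Real.exp_neg]; simp
  rw [he]
  have hepos := Real.exp_pos 2
  rw [div_mul_eq_mul_div, div_le_iff₀ (by positivity)]
  have key : 2 * (M : ℝ) ^ 2 * gZ M ^ 2 ≤ 2 * (M : ℝ) ^ 2 * (2 * (M : ℝ) + 1) ^ 2 :=
    mul_le_mul_of_nonneg_left hZ2 (by positivity)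
  have hpush : ((2 * M + 1 : ℕ) : ℝ) = 2 * (M : ℝ) + 1 := by push_cast; ring
  rw [hpush]
  field_simp
  nlinarith [key, sq_nonneg (M : ℝ), mul_nonneg (mul_nonneg (by linarith : (0:ℝ) ≤ M) (by linarith : (0:ℝ) ≤ M)) (sq_nonneg (2 * (M : ℝ) + 1))]

/-- the second moment of the distance -/
private lemma second_moment (M : ℕ) (hM : 1 ≤ M) (k : ℕ) (hk : 1 ≤ k) :
    gZ M ^ (2 * k) * (2 * k * (M : ℝ) ^ 2 / (3 * Real.exp 2))
      ≤ ∑ x, ∑ y, gPhi M k x * gPhi M k y * gdist2 M k x y := by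
  have h1 : ∀ x y : Fin k → Fin (2 * M + 1), gPhi M k x * gPhi M k y * gdist2 M k x y
      = ∑ j, gPhi M k x * gPhi M k y * (gv M (x j) - gv M (y j)) ^ 2 := by
    intro x y; rw [gdist2, mul_sum]
  simp_rw [h1]
  rw [sum_congr rfl (fun x _ => sum_comm), sum_comm]
  have h2 : ∀ j : Fin k, ∑ x : Fin k → Fin (2 * M + 1), ∑ y : Fin k → Fin (2 * M + 1),
      gPhi M k x * gPhi M k y * (gv M (x j) - gv M (y j)) ^ 2
      = gZ M ^ (k - 1) * gZ M ^ (k - 1) *
        (2 * gZ M * (∑ t, gphi M t * gv M t ^ 2) - 2 * (∑ t, gphi M t * gv M t) ^ 2) := by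
    intro j
    rw [dbl (gPhi M k) (fun x => gv M (x j)), sum_gPhi M k hk,
      marg M k j (fun t => gv M t ^ 2), marg M k j (gv M)]
    have hp : gZ M ^ k = gZ M ^ (k - 1) * gZ M := (pow_sub_one_mul (by omega : k ≠ 0) _).symm
    rw [hp]; ring
  rw [sum_congr rfl (fun j _ => h2 j), sum_const, card_univ, Fintype.card_fin, nsmul_eq_mul]
  have hV := one_coord M hM
  have hp : gZ M ^ (2 * k) = gZ M ^ (k - 1) * gZ M ^ (k - 1) * gZ M ^ 2 := by
    have : 2 * k = (k - 1) + (k - 1) + 2 := by omega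
    rw [this, pow_add, pow_add]
  rw [hp]
  have hW : 0 ≤ gZ M ^ (k - 1) * gZ M ^ (k - 1) := by
    have := (gZ_pos M).le; positivity
  have hk0 : (0 : ℝ) ≤ k := by positivity
  calc gZ M ^ (k - 1) * gZ M ^ (k - 1) * gZ M ^ 2 * (2 * k * (M : ℝ) ^ 2 / (3 * Real.exp 2))
      = k * (gZ M ^ (k - 1) * gZ M ^ (k - 1) * (2 * (M : ℝ) ^ 2 / (3 * Real.exp 2) * gZ M ^ 2)) := by
        ring
    _ ≤ k * (gZ M ^ (k - 1) * gZ M ^ (k - 1) *
        (2 * gZ M * (∑ t, gphi M t * gv M t ^ 2) - 2 * (∑ t, gphi M t * gv M t) ^ 2)) :=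
        mul_le_mul_of_nonneg_left (mul_le_mul_of_nonneg_left hV hW) hk0

theorem grid_spread (M : ℕ) (hM : 1 ≤ M) (k : ℕ) (hk : 1 ≤ k) (q : ℝ) (hq : 2 ≤ q) :
    gZ M ^ (2 * k) * (2 * k * (M : ℝ) ^ 2 / (3 * Real.exp 2)) ^ (q / 2)
      ≤ ∑ x, ∑ y, gPhi M k x * gPhi M k y * (gdist2 M k x y) ^ (q / 2) := by
  set W : ℝ := gZ M ^ (2 * k) with hWdef
  have hWpos : 0 < W := pow_pos (gZ_pos M) _
  set c : ℝ := 2 * k * (M : ℝ) ^ 2 / (3 * Real.exp 2) with hcdef
  have hc0 : 0 ≤ c := by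
    have := Real.exp_pos 2; positivity
  have hS := second_moment M hM k hk
  have hsum1 : ∑ p : (Fin k → Fin (2 * M + 1)) × (Fin k → Fin (2 * M + 1)),
      gPhi M k p.1 * gPhi M k p.2 / W = 1 := by
    rw [Fintype.sum_prod_type]
    simp only
    simp_rw [← sum_div, ← mul_sum, ← sum_mul]
    rw [sum_gPhi M k hk, hWdef, div_eq_one_iff_eq hWpos.ne', ← pow_add]
    congr 1; omega
  have hJ := Real.rpow_arith_mean_le_arith_mean_rpow
    (univ : Finset ((Fin k → Fin (2 * M + 1)) × (Fin k → Fin (2 * M + 1))))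
    (fun p => gPhi M k p.1 * gPhi M k p.2 / W) (fun p => gdist2 M k p.1 p.2)
    (fun p _ => div_nonneg (mul_nonneg (gPhi_nonneg M k p.1) (gPhi_nonneg M k p.2)) hWpos.le)
    hsum1 (fun p _ => gdist2_nonneg M k p.1 p.2) (by linarith : (1 : ℝ) ≤ q / 2)
  rw [Fintype.sum_prod_type, Fintype.sum_prod_type] at hJ
  simp only at hJ
  have e1 : ∑ x : Fin k → Fin (2 * M + 1), ∑ y : Fin k → Fin (2 * M + 1),
      gPhi M k x * gPhi M k y / W * gdist2 M k x y
      = (∑ x, ∑ y, gPhi M k x * gPhi M k y * gdist2 M k x y) / W := by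
    simp_rw [sum_div]
    apply sum_congr rfl; intro x _; apply sum_congr rfl; intro y _; ring
  have e2 : ∑ x : Fin k → Fin (2 * M + 1), ∑ y : Fin k → Fin (2 * M + 1),
      gPhi M k x * gPhi M k y / W * gdist2 M k x y ^ (q / 2)
      = (∑ x, ∑ y, gPhi M k x * gPhi M k y * gdist2 M k x y ^ (q / 2)) / W := by
    simp_rw [sum_div]
    apply sum_congr rfl; intro x _; apply sum_congr rfl; intro y _; ring
  rw [e1, e2] at hJ
  have hcS : c ≤ (∑ x, ∑ y, gPhi M k x * gPhi M k y * gdist2 M k x y) / W := by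
    rw [le_div_iff₀ hWpos]; linarith [hS]
  have h3 : c ^ (q / 2) ≤ (∑ x, ∑ y, gPhi M k x * gPhi M k y * gdist2 M k x y ^ (q / 2)) / W :=
    le_trans (Real.rpow_le_rpow hc0 hcS (by linarith)) hJ
  rw [le_div_iff₀ hWpos] at h3
  linarith [h3]

end Vale.Agent.Lib.P249.H55
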