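import Vale.Agent.Lib.P249.helper62.GridBasic
import Vale.Agent.Lib.P249.helper55.GridSpread

/-!
# P249 grid lower bound: the finite core from the concentration inequality (backup copy, helper55)

`grid_core_of`: the finite core of the grid lower bound, with the concentration inequality
`grid_conc` (for `M = 3 k`) as a hypothesis; the other ingredients (`khin_upper`, `khin_lower`,
`gZ_defect`, `grid_spread`) are proved on main.
-/

namespace Vale.Agent.Lib.P249.H55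

open Finset
open Vale.Agent.Lib.P249.H62

private lemma gPhi_nonneg' (M k : ℕ) (x : Fin k → Fin (2 * M + 1)) : 0 ≤ gPhi M k x := by
  unfold gPhi
  exact prod_nonneg (fun j _ => (gphi_pos M (x j)).le)

private lemma gdist2_nonneg' (M k : ℕ) (x y : Fin k → Fin (2 * M + 1)) :
    0 ≤ gdist2 M k x y := by
  unfold gdist2
  exact sum_nonneg (fun j _ => sq_nonneg _)

private lemma E_upper (M k : ℕ) (q : ℝ) (hq : 0 < q) (c c' : Fin k → Fin (2 * M + 1)) :
    ∑ e, |gX M k c e - gX M k c' e| ^ q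
      ≤ 2 * 2 ^ k * (q * gdist2 M k c c' / Real.exp 1) ^ (q / 2) := by
  have h := khin_upper k q hq (fun j => gv M (c j) - gv M (c' j))
  simp_rw [gX_sub]
  unfold gdist2
  exact h

private lemma E_lower (M k : ℕ) (q : ℝ) (hq : 2 ≤ q) (c c' : Fin k → Fin (2 * M + 1)) :
    (2 : ℝ) ^ k * (gdist2 M k c c') ^ (q / 2) ≤ ∑ e, |gX M k c e - gX M k c' e| ^ q := by
  have h := khin_lower k q hq (fun j => gv M (c j) - gv M (c' j))
  simp_rw [gX_sub]
  unfold gdist2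
  exact h

/-- The finite core of the grid lower bound, from the concentration inequality for `M = 3 k`. -/
theorem grid_core_of (k : ℕ) (hk : 1 ≤ k) (q : ℝ) (hq : 2 ≤ q)
    (hconc : ∀ (Lam : ℝ), 0 ≤ Lam → ∀ (h : (Fin k → Fin (2 * (3 * k) + 1)) → ℝ),
      (∀ x y, |h x - h y| ≤ Lam * Real.sqrt (gdist2 (3 * k) k x y)) →
      ∑ x, ∑ y, gPhi (3 * k) k x * gPhi (3 * k) k y * |h x - h y| ^ q
        ≤ 2 * (gZ (3 * k) + 1) ^ (2 * k) * (q * ((3 * k : ℕ) : ℝ) ^ 2 / Real.exp 1) ^ (q / 2)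
          * Lam ^ q)
    (d : ℕ) (s D : ℝ) (hs : 0 < s)
    (y : (Fin k → Fin (2 * (3 * k) + 1)) → Fin d → ℝ)
    (hlow : ∀ c c', s ^ q * ∑ e, |gX (3 * k) k c e - gX (3 * k) k c' e| ^ q
      ≤ ∑ i, |y c i - y c' i| ^ q)
    (hup : ∀ c c', ∑ i, |y c i - y c' i| ^ q
      ≤ D ^ q * s ^ q * ∑ e, |gX (3 * k) k c e - gX (3 * k) k c' e| ^ q) :
    (1 / 11 : ℝ) * (2 * k / (3 * q ^ 2)) ^ (q / 2) ≤ D ^ q * d := by
  have hq0 : 0 < q := by linarith
  have hM : 1 ≤ 3 * k := by omega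
  have hsq : 0 < s ^ q := Real.rpow_pos_of_pos hs q
  have he1 : 0 < Real.exp 1 := Real.exp_pos 1
  have hkpos : (0 : ℝ) < k := by exact_mod_cast hk
  have hZpos := gZ_pos (3 * k)
  obtain ⟨Mr, hMr⟩ : ∃ Mr : ℝ, Mr = ((3 * k : ℕ) : ℝ) := ⟨_, rfl⟩
  have hMrpos : 0 < Mr := by rw [hMr]; exact_mod_cast hM
  rw [← hMr] at hconc
  generalize hBdef : D ^ q = B at hup ⊢
  -- Step 0: B ≥ 1
  have hB : 1 ≤ B := by
    let c0 : Fin k → Fin (2 * (3 * k) + 1) := fun _ => ⟨0, by omega⟩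
    let c1 : Fin k → Fin (2 * (3 * k) + 1) := fun _ => ⟨1, by omega⟩
    have hg : gdist2 (3 * k) k c1 c0 = k := by
      unfold gdist2 gv
      simp [c0, c1]
    have hE := E_lower (3 * k) k q hq c1 c0
    rw [hg] at hE
    have hEpos : 0 < ∑ e, |gX (3 * k) k c1 e - gX (3 * k) k c0 e| ^ q := by
      refine lt_of_lt_of_le ?_ hE
      positivity
    have h1 := hlow c1 c0
    have h2 := hup c1 c0
    have hP : 0 < s ^ q * ∑ e, |gX (3 * k) k c1 e - gX (3 * k) k c0 e| ^ q := mul_pos hsq hEpos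
    have h3 : 1 * (s ^ q * ∑ e, |gX (3 * k) k c1 e - gX (3 * k) k c0 e| ^ q)
        ≤ B * (s ^ q * ∑ e, |gX (3 * k) k c1 e - gX (3 * k) k c0 e| ^ q) := by
      rw [one_mul, ← mul_assoc]; exact h1.trans h2
    exact le_of_mul_le_mul_right h3 hP
  have hB0 : 0 ≤ B := by linarith
  -- Step A: the Lipschitz constant
  obtain ⟨L, hL⟩ : ∃ L : ℝ, L = B * s ^ q * (2 * 2 ^ k) * (q / Real.exp 1) ^ (q / 2) := ⟨_, rfl⟩
  have hL0 : 0 ≤ L := by rw [hL]; positivity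
  obtain ⟨Lam, hLam⟩ : ∃ Lam : ℝ, Lam = L ^ (1 / q) := ⟨_, rfl⟩
  have hLam0 : 0 ≤ Lam := by rw [hLam]; exact Real.rpow_nonneg hL0 _
  have hLamq : Lam ^ q = L := by
    rw [hLam, ← Real.rpow_mul hL0, one_div, inv_mul_cancel₀ hq0.ne', Real.rpow_one]
  have hlip : ∀ (i : Fin d) (c c' : Fin k → Fin (2 * (3 * k) + 1)),
      |y c i - y c' i| ≤ Lam * Real.sqrt (gdist2 (3 * k) k c c') := by
    intro i c c'
    have hg0 := gdist2_nonneg' (3 * k) k c c'
    have h1 : |y c i - y c' i| ^ q ≤ ∑ i', |y c i' - y c' i'| ^ q :=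
      single_le_sum (f := fun i' => |y c i' - y c' i'| ^ q)
        (fun i' _ => Real.rpow_nonneg (abs_nonneg _) q) (mem_univ i)
    have h2 := hup c c'
    have h3 := E_upper (3 * k) k q hq0 c c'
    have h4 : (q * gdist2 (3 * k) k c c' / Real.exp 1) ^ (q / 2)
        = (q / Real.exp 1) ^ (q / 2) * (gdist2 (3 * k) k c c') ^ (q / 2) := by
      rw [← Real.mul_rpow (by positivity) hg0]; congr 1; ring
    have h5 : (Lam * Real.sqrt (gdist2 (3 * k) k c c')) ^ q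
        = L * (gdist2 (3 * k) k c c') ^ (q / 2) := by
      rw [Real.mul_rpow hLam0 (Real.sqrt_nonneg _), hLamq, Real.sqrt_eq_rpow,
        ← Real.rpow_mul hg0]
      congr 2; ring
    have h6 : |y c i - y c' i| ^ q ≤ (Lam * Real.sqrt (gdist2 (3 * k) k c c')) ^ q := by
      rw [h5]
      calc |y c i - y c' i| ^ q
          ≤ B * s ^ q * ∑ e, |gX (3 * k) k c e - gX (3 * k) k c' e| ^ q := h1.trans h2
        _ ≤ B * s ^ q * (2 * 2 ^ k * (q * gdist2 (3 * k) k c c' / Real.exp 1) ^ (q / 2)) :=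
            mul_le_mul_of_nonneg_left h3 (mul_nonneg hB0 hsq.le)
        _ = L * (gdist2 (3 * k) k c c') ^ (q / 2) := by rw [h4, hL]; ring
    exact (Real.rpow_le_rpow_iff (abs_nonneg _)
      (mul_nonneg hLam0 (Real.sqrt_nonneg _)) hq0).mp h6
  -- Step B: concentration for every coordinate
  obtain ⟨R, hR⟩ : ∃ R : ℝ, R = 2 * (gZ (3 * k) + 1) ^ (2 * k)
      * (q * Mr ^ 2 / Real.exp 1) ^ (q / 2) * Lam ^ q := ⟨_, rfl⟩
  have hBi : ∀ i : Fin d,
      ∑ c, ∑ c', gPhi (3 * k) k c * gPhi (3 * k) k c' * |y c i - y c' i| ^ q ≤ R := by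
    intro i
    rw [hR]
    exact hconc Lam hLam0 (fun c => y c i) (hlip i)
  have hsumB : ∑ i : Fin d,
      ∑ c, ∑ c', gPhi (3 * k) k c * gPhi (3 * k) k c' * |y c i - y c' i| ^ q ≤ d * R := by
    calc ∑ i : Fin d, ∑ c, ∑ c', gPhi (3 * k) k c * gPhi (3 * k) k c' * |y c i - y c' i| ^ q
        ≤ ∑ _i : Fin d, R := sum_le_sum (fun i _ => hBi i)
      _ = d * R := by simp
  -- Step C: the lower bound
  have hsp := grid_spread (3 * k) hM k hk q hq
  rw [← hMr] at hsp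
  have hC : s ^ q * 2 ^ k * (gZ (3 * k) ^ (2 * k) * (2 * k * Mr ^ 2 / (3 * Real.exp 2)) ^ (q / 2))
      ≤ ∑ i : Fin d,
        ∑ c, ∑ c', gPhi (3 * k) k c * gPhi (3 * k) k c' * |y c i - y c' i| ^ q := by
    have hswap : ∑ i : Fin d,
        ∑ c, ∑ c', gPhi (3 * k) k c * gPhi (3 * k) k c' * |y c i - y c' i| ^ q
        = ∑ c, ∑ c', gPhi (3 * k) k c * gPhi (3 * k) k c' * ∑ i : Fin d, |y c i - y c' i| ^ q := by
      rw [sum_comm]
      apply sum_congr rfl; intro c _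
      rw [sum_comm]
      apply sum_congr rfl; intro c' _
      rw [mul_sum]
    rw [hswap]
    calc s ^ q * 2 ^ k * (gZ (3 * k) ^ (2 * k) * (2 * k * Mr ^ 2 / (3 * Real.exp 2)) ^ (q / 2))
        ≤ s ^ q * 2 ^ k * ∑ c, ∑ c', gPhi (3 * k) k c * gPhi (3 * k) k c'
            * (gdist2 (3 * k) k c c') ^ (q / 2) :=
          mul_le_mul_of_nonneg_left hsp (by positivity)
      _ = ∑ c, ∑ c', gPhi (3 * k) k c * gPhi (3 * k) k c'
            * (s ^ q * (2 ^ k * (gdist2 (3 * k) k c c') ^ (q / 2))) := by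
          simp_rw [mul_sum]
          apply sum_congr rfl; intro c _; apply sum_congr rfl; intro c' _; ring
      _ ≤ ∑ c, ∑ c', gPhi (3 * k) k c * gPhi (3 * k) k c'
            * ∑ i : Fin d, |y c i - y c' i| ^ q := by
          apply sum_le_sum; intro c _; apply sum_le_sum; intro c' _
          apply mul_le_mul_of_nonneg_left _
            (mul_nonneg (gPhi_nonneg' (3 * k) k c) (gPhi_nonneg' (3 * k) k c'))
          exact (mul_le_mul_of_nonneg_left (E_lower (3 * k) k q hq c c') hsq.le).trans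
            (hlow c c')
  have hfin := hC.trans hsumB
  -- algebra
  obtain ⟨T, hT⟩ : ∃ T : ℝ, T = q ^ 2 * Mr ^ 2 / (Real.exp 1) ^ 2 := ⟨_, rfl⟩
  have hTpos : 0 < T := by rw [hT]; positivity
  have hTq : 0 < T ^ (q / 2) := Real.rpow_pos_of_pos hTpos _
  have hexp2 : Real.exp 2 = Real.exp 1 ^ 2 := by
    rw [← Real.exp_nat_mul]; norm_num
  have e1 : (2 * k * Mr ^ 2 / (3 * Real.exp 2)) ^ (q / 2)
      = (2 * k / (3 * q ^ 2)) ^ (q / 2) * T ^ (q / 2) := by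
    rw [← Real.mul_rpow (by positivity) hTpos.le]
    congr 1
    rw [hexp2, hT]; field_simp
  have e2 : (q * Mr ^ 2 / Real.exp 1) ^ (q / 2) * (q / Real.exp 1) ^ (q / 2) = T ^ (q / 2) := by
    rw [← Real.mul_rpow (by positivity) (by positivity)]
    congr 1
    rw [hT]; field_simp
  have hdef := gZ_defect k hk
  have hRle : d * R
      ≤ s ^ q * 2 ^ k * gZ (3 * k) ^ (2 * k) * T ^ (q / 2) * (4 * Real.exp 1 * (d * B)) := by
    rw [hR, hLamq, hL]
    have hre : (d : ℝ) * (2 * (gZ (3 * k) + 1) ^ (2 * k) * (q * Mr ^ 2 / Real.exp 1) ^ (q / 2) *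
        (B * s ^ q * (2 * 2 ^ k) * (q / Real.exp 1) ^ (q / 2)))
        = 4 * d * B * s ^ q * 2 ^ k * T ^ (q / 2) * (gZ (3 * k) + 1) ^ (2 * k) := by
      rw [← e2]; ring
    rw [hre]
    have hnn : 0 ≤ 4 * (d : ℝ) * B * s ^ q * 2 ^ k * T ^ (q / 2) := by positivity
    calc 4 * (d : ℝ) * B * s ^ q * 2 ^ k * T ^ (q / 2) * (gZ (3 * k) + 1) ^ (2 * k)
        ≤ 4 * (d : ℝ) * B * s ^ q * 2 ^ k * T ^ (q / 2) * (Real.exp 1 * gZ (3 * k) ^ (2 * k)) :=
          mul_le_mul_of_nonneg_left hdef hnn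
      _ = s ^ q * 2 ^ k * gZ (3 * k) ^ (2 * k) * T ^ (q / 2) * (4 * Real.exp 1 * (d * B)) := by
          ring
  have hP : 0 < s ^ q * 2 ^ k * gZ (3 * k) ^ (2 * k) * T ^ (q / 2) := by positivity
  have hmain : (2 * k / (3 * q ^ 2)) ^ (q / 2) ≤ 4 * Real.exp 1 * (d * B) := by
    have h1 : s ^ q * 2 ^ k * gZ (3 * k) ^ (2 * k) * T ^ (q / 2) * (2 * k / (3 * q ^ 2)) ^ (q / 2)
        ≤ s ^ q * 2 ^ k * gZ (3 * k) ^ (2 * k) * T ^ (q / 2) * (4 * Real.exp 1 * (d * B)) := by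
      calc s ^ q * 2 ^ k * gZ (3 * k) ^ (2 * k) * T ^ (q / 2) * (2 * k / (3 * q ^ 2)) ^ (q / 2)
          = s ^ q * 2 ^ k * (gZ (3 * k) ^ (2 * k)
              * (2 * k * Mr ^ 2 / (3 * Real.exp 2)) ^ (q / 2)) := by rw [e1]; ring
        _ ≤ d * R := hfin
        _ ≤ _ := hRle
    exact le_of_mul_le_mul_left h1 hP
  have he : Real.exp 1 < 2.7182818286 := Real.exp_one_lt_d9
  have hdB : 0 ≤ (d : ℝ) * B := mul_nonneg (Nat.cast_nonneg d) hB0
  have h11 : 4 * Real.exp 1 * (d * B) ≤ 11 * (d * B) :=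
    mul_le_mul_of_nonneg_right (by linarith) hdB
  linarith [mul_comm B (d : ℝ)]

end Vale.Agent.Lib.P249.H55
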