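import Vale.Agent.Lib.P249.helper55.GridCore
import Vale.Agent.Lib.P249.helper52.GridConcFinal

/-!
# P249 grid lower bound: the finite core, hypothesis-free (backup copy, helper55)

`grid_core` with the exact statement of the skeleton (report of helper62), assembled from
`grid_core_of` and `grid_conc` (helper52).
-/

namespace Vale.Agent.Lib.P249.H55

open Finset
open Vale.Agent.Lib.P249.H62

/-- the finite core of the grid lower bound -/
theorem grid_core (k : ℕ) (hk : 1 ≤ k) (q : ℝ) (hq : 2 ≤ q) (d : ℕ) (s D : ℝ) (hs : 0 < s)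
    (y : (Fin k → Fin (2 * (3 * k) + 1)) → Fin d → ℝ)
    (hlow : ∀ c c', s ^ q * ∑ e, |gX (3 * k) k c e - gX (3 * k) k c' e| ^ q
      ≤ ∑ i, |y c i - y c' i| ^ q)
    (hup : ∀ c c', ∑ i, |y c i - y c' i| ^ q
      ≤ D ^ q * s ^ q * ∑ e, |gX (3 * k) k c e - gX (3 * k) k c' e| ^ q) :
    (1 / 11 : ℝ) * (2 * k / (3 * q ^ 2)) ^ (q / 2) ≤ D ^ q * d :=
  grid_core_of k hk q hq
    (fun Lam hLam h hlip =>
      Vale.Agent.Lib.P249.H52.grid_conc (3 * k) (by omega) k q (by linarith) Lam hLam h hlip)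
    d s D hs y hlow hup

end Vale.Agent.Lib.P249.H55
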